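import Crest.Agent.X212.Pi52.Stmt
import Crest.Agent.X212.Loc8.Sc

/-!
# Row 212, PI1-OUT (helper96): the word part of a piece outside some arcs is simply connected
-/

set_option autoImplicit false
set_option linter.unusedSectionVars false
noncomputable section
open Set Function Filter Topology
open scoped ContDiff Manifold

namespace Crest.Agent.X212.Po96
open M Rod53 Wd38 Cyl58 Hz56 Lev33 Nm96 Br55
open Sid48 (sd sw OK_lo OK_hi OK_rg cast_lt cast_le)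

variable {G : Type*} [Group G] {Γ : Nm} {C : Cx Γ} {w : Shp Γ} {hw : w.OK} {X : TP V4} (R : Rz C hw X)
  {T : Finset Bs} {x y j : ℤ} {c : X.P.M → X.P.M → G} {a : Bs} {z : X.P.M} {J : Set ℝ}

/-- the outside of the arcs `T` -/
def out (T : Finset Bs) : Set X.P.M := ⋂ a ∈ T, sd R a true

/-- its base -/
def ho (T : Finset Bs) : Set (ℝ × ℝ) := holes (fun a : T => cc a.1.lo a.1.hi) fun a => a.1.r0

/-- pairwise far arcs -/
structure Arcs (w : Shp Γ) (T : Finset Bs) : Prop where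
  ok : ∀ a ∈ T, a.OK w ∧ a.arc
  far : ∀ a ∈ T, ∀ b ∈ T, a ≠ b → a.Far b

/-- the start of the good times of the slot `j` -/
def mm (T : Finset Bs) (j : ℤ) : ℝ := if ∃ a ∈ T, a.lo = j then j + 1 / 4 else j + 1 / 2

/-- no arc crosses the slot `j` -/
def Fre (T : Finset Bs) (j : ℤ) : Prop := ∀ a ∈ T, j ≤ a.lo ∨ a.hi ≤ j

theorem mm_ge (T : Finset Bs) (j : ℤ) : (j : ℝ) + 1 / 4 ≤ mm T j := by
  unfold mm; split_ifs <;> linarith

theorem mm_le (T : Finset Bs) (j : ℤ) : mm T j ≤ j + 1 / 2 := by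
  unfold mm; split_ifs <;> linarith

theorem mm_lo (h : a ∈ T) : mm T a.lo = a.lo + 1 / 4 := if_pos ⟨a, h, rfl⟩

theorem Arcs.lt (A : Arcs w T) (h : a ∈ T) : a.lo < a.hi := (OK_rg (A.ok a h).1 (A.ok a h).2).lt

theorem Arcs.mm_hi (A : Arcs w T) (h : a ∈ T) : mm T a.hi = a.hi + 1 / 2 := if_neg fun ⟨b, hb, e⟩ => by
  have := A.lt h
  have := A.lt hb
  by_cases n : a = b
  · subst n; omega
  · rcases A.far a h b hb n with k | k | ⟨-, k, k', -⟩ | ⟨-, k, k', -⟩ <;> omega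

theorem mm_II : Ioo (mm T x) (mm T y + 1 / 4) ⊆ II x y :=
  Ioo_subset_Ioo (mm_ge T x) (by linarith [mm_le T y])

theorem isOpen_out (A : Arcs w T) : IsOpen (out R T) := isOpen_biInter_finset fun a h =>
  Sid48.nk_S R (A.ok a h).1 true ▸ (R.nk a (A.ok a h).1).h.op true

theorem sd_time (q : a.arc) (h : X.τ z < a.lo + 1 / 2 ∨ a.hi + 1 / 2 < X.τ z) : z ∈ sd R a true :=
  fun k => h.elim ((Sid48.Z_time R k le_rfl).1 q).not_gt (Sid48.Z_time R k le_rfl).2.not_gt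

theorem mem_sd (h : w.Rg x y) (ha : a.OK w) (q : a.arc) {p : C.XR w x y} (hp : C.tm p ∈ II x y)
    (h1 : a.lo = y → C.tm p < a.lo + 1 / 2) (h2 : x = a.hi → a.hi + 1 / 2 < C.tm p) :
    R.B h p ∈ sd R a true ↔ (p ∈ (C.T _).tor _ → a.r0 < rd (cc a.lo a.hi) ((C.T _).bs _ p)) := by
  by_cases k : C.tm p < a.lo + 1 / 2 ∨ a.hi + 1 / 2 < C.tm p
  · refine iff_of_true (sd_time R q (((R.B h).tm p hp).symm ▸ k)) fun _ =>
      lt_of_lt_of_le ?_ ((C.T _).abs_time_le (cc a.lo a.hi) p)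
    rw [(R.arc_eq q).2, lt_abs]
    unfold cc
    exact k.symm.imp (fun e => by linarith) fun e => by linarith
  have k' := not_or.1 k
  change ¬R.B h p ∈ R.Z a _ ↔ _
  rw [(R.arc_eq q).1, R.mem_D h (OK_rg ha q) ⟨fun e => (k'.1 (h1 e)).elim, fun e => (k'.2 (h2 e)).elim⟩ hp,
    and_iff_right (show C.tm p ∈ II a.lo a.hi from ⟨by linarith [not_lt.1 k'.1], by linarith [not_lt.1 k'.2]⟩)]
  exact not_and.trans (imp_congr_right fun _ => not_le (b := a.r0))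

theorem mem_out (A : Arcs w T) (h : w.Rg x y) {p : C.XR w x y} (hp : C.tm p ∈ II x y)
    (h1 : ∀ a ∈ T, (a.lo = y → C.tm p < a.lo + 1 / 2) ∧ (x = a.hi → a.hi + 1 / 2 < C.tm p)) :
    R.B h p ∈ out R T ↔ (p ∈ (C.T _).tor _ → (C.T _).bs _ p ∈ ho T) := by
  have e := fun a k => mem_sd R h (A.ok a k).1 (A.ok a k).2 hp (h1 a k).1 (h1 a k).2
  exact mem_iInter₂.trans ⟨fun k t a => (e a a.2).1 (k a a.2) t, fun k a t => (e a t).2 fun s => k s ⟨a, t⟩⟩

theorem img (A : Arcs w T) (h : w.Rg x y) (hJ : J ⊆ Ioo (mm T x) (mm T y + 1 / 4)) :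
    R.B h '' reg (C.T _) (w.v x y) J (ho T) = X.τ ⁻¹' J ∩ out R T := by
  have e : ∀ {p : C.XR w x y}, C.tm p ∈ J → _ := fun hp => mem_out R A h (mm_II (hJ hp)) fun a k =>
    ⟨fun e => by subst e; linarith [(hJ hp).2, mm_lo k], fun e => by subst e; linarith [(hJ hp).1, A.mm_hi k]⟩
  ext z
  constructor
  · rintro ⟨p, hp, rfl⟩
    exact ⟨mem_preimage.2 (((R.B h).tm p (mm_II (hJ hp.1))).symm ▸ hp.1), (e hp.1).2 hp.2⟩
  · rintro ⟨h1, h2⟩
    obtain ⟨p, k, rfl⟩ := (R.B h).surj (mm_II (hJ h1))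
    have k' : C.tm p ∈ J := (show C.tm p = _ from k) ▸ h1
    exact ⟨p, ⟨k', (e k').1 h2⟩, rfl⟩

theorem tr_step (A : Arcs w T) (h : w.Rg x y) (k : Coc (X.τ ⁻¹' Ioo (mm T x) (mm T y + 1 / 4) ∩ out R T) c)
    {t : ℝ} (ht : t ∈ Ioo (mm T x) (mm T y + 1 / 4)) (k' : Tr (X.τ ⁻¹' {t} ∩ out R T) c) :
    Tr (X.τ ⁻¹' Ioo (mm T x) (mm T y + 1 / 4) ∩ out R T) c := by
  have s : ∀ {L}, L ⊆ Ioo (mm T x) (mm T y + 1 / 4) → reg (C.T _) (w.v x y) L (ho T) ⊆ (R.B h).φ.source :=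
    fun hL p hp => (R.B h).mem_src (mm_II (hL hp.1))
  have s1 := singleton_subset_iff.2 ht
  rw [← img R A h Subset.rfl] at k ⊢
  rw [← img R A h s1] at k'
  refine (op_of_pd (R.B h).φ.toOpenPartialHomeomorph (s Subset.rfl)).tr ((R.B h).φ.injOn.mono (s Subset.rfl))
    (tr_reg_slice (C.T (w.kn x)) h1_S3 isOpen_Ioo (convex_Ioo _ _) (isOpen_holes _ _) (R := w.r - w.l)
      (holes_high (fun a => ?_) _) (holes_up _ _)
      (k.comp ((R.B h).φ.contMDiffOn.continuousOn.mono (s Subset.rfl)) (mapsTo_image _ _)) ht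
      (k'.comp ((R.B h).φ.contMDiffOn.continuousOn.mono (s s1)) (mapsTo_image _ _)))
  have o := A.ok a a.2
  rw [(R.arc_eq o.2).2]
  linarith [cast_le (OK_lo o.1).1, cast_le (OK_hi o.1).1, cast_le (OK_hi o.1).2]

theorem fre_out (A : Arcs w T) (f : Fre T j) (hz : X.τ z ∈ Ioo (mm T j) (mm T j + 1 / 4)) : z ∈ out R T :=
  mem_iInter₂.2 fun a k => sd_time R (A.ok a k).2 ((f a k).imp (fun e => by
    rcases e.eq_or_lt with rfl | e
    · linarith [hz.2, mm_lo k]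
    · linarith [hz.2, mm_le T j, cast_lt e]) fun e => by
    rcases e.eq_or_lt with rfl | e
    · linarith [hz.1, A.mm_hi k]
    · linarith [hz.1, mm_ge T j, cast_lt e])

theorem Arcs.next (A : Arcs w T) (f : Fre T j) (h1 : w.l ≤ j) (h2 : j < w.r) : ∃ i, w.Rg j i ∧ Fre T i := by
  by_cases k : ∃ a ∈ T, a.lo = j
  · obtain ⟨a, ha, rfl⟩ := k
    refine ⟨a.hi, OK_rg (A.ok a ha).1 (A.ok a ha).2, fun b hb => ?_⟩
    have := A.lt ha
    have := A.lt hb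
    have := f b hb
    by_cases n : a = b
    · subst n; omega
    · rcases A.far a ha b hb n with k | k | ⟨-, k, k', -⟩ | ⟨-, k, k', -⟩ <;> omega
  · refine ⟨j + 1, Shp.rg_one h1 h2, fun b hb => ?_⟩
    have := f b hb
    have : b.lo ≠ j := fun e => k ⟨b, hb, e⟩
    omega

theorem tr_out (A : Arcs w T) {α : ℝ} (k : Coc (X.τ ⁻¹' Ioo α (w.r + 3 / 4) ∩ out R T) c) (n : ℕ) :
    ∀ j, w.r - j ≤ n → w.l ≤ j → j ≤ w.r → Fre T j → α ≤ mm T j →
      Tr (X.τ ⁻¹' Ioo α (mm T j + 1 / 4) ∩ out R T) c → Tr (X.τ ⁻¹' Ioo α (w.r + 3 / 4) ∩ out R T) c := by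
  have z : Tr (X.τ ⁻¹' Ioo α (mm T w.r + 1 / 4) ∩ out R T) c →
      Tr (X.τ ⁻¹' Ioo α (w.r + 3 / 4) ∩ out R T) c := fun t => by
    rwa [mm, if_neg fun ⟨a, h, e⟩ => (OK_lo (A.ok a h).1).2.ne e, add_assoc,
      show (1 / 2 + 1 / 4 : ℝ) = 3 / 4 by norm_num] at t
  induction n with
  | zero =>
    intro j h0 _ h2 _ _ t
    obtain rfl : j = w.r := by omega
    exact z t
  | succ n ih =>
    intro j h0 h1 h2 f h3 t
    rcases h2.eq_or_lt with rfl | h2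
    · exact z t
    obtain ⟨i, r, f'⟩ := A.next f h1 h2
    have l := r.lt
    have l1 : mm T j + 1 / 4 < mm T i := by linarith [mm_le T j, mm_ge T i, cast_lt l]
    have o : ∀ a b, IsOpen (X.τ ⁻¹' Ioo a b ∩ out R T) := fun _ _ =>
      (isOpen_Ioo.preimage X.cont).inter (isOpen_out R A)
    refine ih i (by omega) (by omega) r.hi f' (by linarith) ((t.union (o _ _) (o _ _) (tr_step R A r
      (k.mono (inter_subset_inter_left _ (preimage_mono (Ioo_subset_Ioo h3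
        (by linarith [mm_le T i, cast_le r.hi]))))) (t := mm T j + 1 / 8) ⟨by linarith, by linarith⟩
      (t.mono (inter_subset_inter_left _ (preimage_mono (singleton_subset_iff.2
        ⟨by linarith, by linarith⟩))))) ?_).mono fun z hz => ?_)
    · convert Pi52.pre_time R r isOpen_Ioo (isPreconnected_Ioo (a := mm T j) (b := mm T j + 1 / 4))
        ((Ioo_subset_Ioo_right (by linarith)).trans (mm_II (T := T))) using 1
      exact Subset.antisymm (fun z hz => ⟨hz.2.1.1, hz.1.1.2⟩) fun z hz =>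
        ⟨⟨⟨h3.trans_lt hz.1, hz.2⟩, fre_out R A f hz⟩, ⟨hz.1, by linarith [hz.2]⟩, fre_out R A f hz⟩
    · exact (lt_or_ge (X.τ z) (mm T j + 1 / 4)).imp (fun e => ⟨⟨hz.1.1, e⟩, hz.2⟩)
        fun e => ⟨⟨by linarith, hz.1.2⟩, hz.2⟩

theorem h1_sS (A : Arcs w T) (h : (Bs.sS x).OK w) (hx : ∀ a ∈ T, x < a.lo) :
    H1 G (X.τ ⁻¹' Ioo ((x : ℝ) + 1 / 2) (w.r + 3 / 4) ∩ out R T) := fun _ k => by
  have e : mm T x = x + 1 / 2 := if_neg fun ⟨a, h, e⟩ => (hx a h).ne' e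
  have f : Fre T x := fun a h => .inl (hx a h).le
  have l := cast_lt h.2.1
  refine tr_out R A k (w.r - x).toNat x (by omega) h.1 h.2.1.le f e.ge
    (((Pi52.h1_sS R h (α := x + 1 / 2) (T := mm T x + 1 / 4) (by linarith) (by linarith) (by linarith)).tr k
      fun z hz => ⟨⟨hz.1, by linarith [hz.2]⟩, fre_out R A f ⟨e ▸ hz.1, hz.2⟩⟩).mono inter_subset_left)

theorem h1_sA (A : Arcs w T) (h : (Bs.sA x y).OK w) (hx : ∀ a ∈ T, x < a.lo ∧ a.hi < y) :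
    H1 G (R.D x y (Iio (((y : ℝ) - x) / 2)) ∩ out R T) := by
  have hS : ∀ s ∈ Iio (((y : ℝ) - x) / 2), s < ((y : ℝ) - x) / 2 + 1 / 4 := fun s hs => by
    linarith [mem_Iio.1 hs]
  have l := cast_lt h.1.lt
  have an := holes_ann (c := fun a : T => cc a.1.lo a.1.hi) (r := fun a => a.1.r0) (d := cc x y)
    (r₀ := ((y : ℝ) - x) / 2 - 1) fun a => by
      have := abs_le.2 (show -((y - x) / 2 - 1 - a.1.r0) ≤ cc a.1.lo a.1.hi - cc x y ∧
          cc a.1.lo a.1.hi - cc x y ≤ (y - x) / 2 - 1 - a.1.r0 by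
        rw [(R.arc_eq (A.ok a a.2).2).2]
        unfold cc
        exact ⟨by linarith [cast_lt (hx a a.2).1], by linarith [cast_lt (hx a a.2).2]⟩)
      linarith
  have m : ∀ {p : C.XR w x y}, p ∈ (C.T _).disc _ (cc x y) (Iio (((y : ℝ) - x) / 2)) → _ := fun hp =>
    mem_out R A h.1 (C.tm_disc hp hS) fun a k =>
      ⟨fun e => by have := hx a k; have := A.lt k; omega, fun e => by have := hx a k; have := A.lt k; omega⟩
  have e : R.D x y (Iio (((y : ℝ) - x) / 2)) ∩ out R T =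
      R.B h.1 '' (C.T _).ov _ (ho T ∩ {q | rd (cc x y) q < ((y : ℝ) - x) / 2}) := by
    rw [R.D_eq h.1 hS]
    ext z
    constructor
    · rintro ⟨⟨p, hp, rfl⟩, k⟩
      exact ⟨p, ⟨hp.1, (m hp).1 k hp.1, hp.2⟩, rfl⟩
    · rintro ⟨p, hp, rfl⟩
      exact ⟨⟨p, ⟨hp.1, hp.2.2⟩, rfl⟩, (m ⟨hp.1, hp.2.2⟩).2 fun _ => hp.2.1⟩
  have r : ∀ t : ℝ, |t - cc x y| = (y - x) / 2 - 1 / 8 → (t, (0 : ℝ)) ∈ ho T ∧ |t - cc x y| < (y - x) / 2 :=
    fun t k => ⟨an _ (by simp only [rd, ne_eq, OfNat.ofNat_ne_zero, not_false_eq_true, zero_pow, add_zero,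
      Real.sqrt_sq_eq_abs]; linarith), by linarith⟩
  have r1 := r (cc x y - ((y - x) / 2 - 1 / 8)) (by rw [sub_sub_cancel_left, abs_neg, abs_of_pos (by linarith)])
  have r2 := r (cc x y + ((y - x) / 2 - 1 / 8)) (by rw [add_sub_cancel_left, abs_of_pos (by linarith)])
  rw [e]
  refine (tiso_h1 (R.B h.1) fun p hp => C.tm_disc (p := p) ⟨hp.1, hp.2.2⟩ hS).2 (h1_disc_holes _
    (sub_one_lt _) (isOpen_holes _ _) (holes_up _ _) (fun q _ k _ => an q k) h.2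
    (Shp.bw_le (w := w) (y := y) le_rfl ▸ h.1.jr hw ?_) r1.1 r1.2
    (Shp.bw_ge h.1.lt le_rfl ▸ h.1.jr hw ?_) r2.1 r2.2)
  all_goals unfold cc; exact ⟨by linarith, by linarith⟩

/-- the far side of a pinch wall, outside the arcs -/
theorem h1_sd (A : Arcs w T) {b : Bs} (h : b.OK w) (hp : b.pin) {s : Bool} (hs : b.side w.l ≠ s)
    (k : ∀ a ∈ T, a.Far b ∧ sw b a = s) : H1 G (sd R b s ∩ Pi52.wp R ∩ out R T) := by
  cases b with
  | sA x y =>
    obtain rfl : s = false := by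
      have := h.1.lo
      cases s
      · rfl
      · simp [Bs.side] at hs; omega
    rw [inter_eq_left.2 (show sd R (.sA x y) false ⊆ _ from Pi52.D_wp R)]
    refine h1_sA R A h fun a ha => ?_
    have := A.lt ha
    have e : x < a.lo + 1 ∧ a.lo + 1 ≤ y := (Sid48.side_arc (a := .sA x y) trivial).1 (k a ha).2
    rcases (k a ha).1 with k | k | ⟨-, k, k', -⟩ | ⟨-, k, k', -⟩ <;> simp only [Bs.lo, Bs.hi] at * <;> omega
  | sS x =>
    obtain rfl : s = true := by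
      have := h.1
      cases s
      · simp [Bs.side] at hs; omega
      · rfl
    convert h1_sS (G := G) R A h (fun a ha => ?_) using 2
    · ext z
      exact and_congr_left' (not_le (a := X.τ z))
    have := A.lt ha
    have e : x < a.lo + 1 := (Sid48.side_sl (a := .sS x) id).1 (k a ha).2
    rcases (k a ha).1 with k | k | ⟨-, -, -, k⟩ | ⟨k, -⟩
    · exact absurd (show a.hi < x from k) (by omega)
    exacts [k, k.elim, k.elim]
  | _ => exact hp.elim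

/-! ### pieces -/

variable {B : Finset Bs} {η : Bs → Bool}

/-- the neck system of the walls `B` -/
def ts (h : ∀ a ∈ B, a.OK w) : Sys X.P.M B := ⟨fun a => (R.bn a.1 (h _ a.2)).wall⟩

theorem ts_trc (h : ∀ a ∈ B, a.OK w) : Sid48.Trc R (ts R h) id Subtype.val univ :=
  ⟨bijective_id, fun a _ => h _ a.2, fun a _ => ((Sid48.utw_nil rfl).spec R (a := a.1) (h _ a.2)).1,
    fun a _ z => Iff.trans (by rw [← R.range_bn _ (h _ a.2)]; rfl)
      (((Sid48.utw_nil rfl).spec R (a := a.1) (h _ a.2)).2 z)⟩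

theorem ts_piece (h : ∀ a ∈ B, a.OK w) (far : ∀ a ∈ B, ∀ b ∈ B, a ≠ b → a.Far b) (ha : a ∈ B)
    (k : Adj B η a) : ∃ π, (ts R h).IsReg π ∧ (ts R h).U π = pc R B η ∧ ((ts R h).U π ∩ R.bd a).Nonempty ∧
      ∀ b s, π b = some s → η b = s := by
  have := R.con
  have T := ts_trc R h
  have f : ∀ {a b : B}, a ≠ b → a.1.Far b.1 := fun n => far _ (Subtype.prop _) _ (Subtype.prop _)
    fun e => n (Subtype.ext e)
  have c : (ts R h).Cell univ := T.cell fun _ _ _ _ n => f n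
  obtain ⟨π, ⟨hπ, e⟩, -⟩ := Sys.existsUnique_adj c (mem_univ ⟨a, ha⟩) (η a)
  obtain ⟨z, hz⟩ := ((ts R h).w ⟨a, ha⟩).ne (η a)
  have s : ∀ b : B, (ts R h).U π ⊆ ((ts R h).w b).sd (η b) := fun b => by
    obtain ⟨s, t⟩ := hπ.side c (mem_univ b)
    refine ((ts R h).w b).sd_inj (b' := η b) (t (hπ.adj _ _ e hz)) ?_ ▸ t
    by_cases n : b = ⟨a, ha⟩
    · exact n ▸ hz.2
    · exact k b (Finset.mem_erase.2 ⟨fun q => n (Subtype.ext q), b.2⟩) ▸ T.far_sd trivial trivial (f n) hz.1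
  have u := fun b t (q : π b = some t) =>
    ((ts R h).w b).sd_inj (s b (hπ.adj _ _ e hz)) (hπ.adj _ _ e hz b t q)
  exact ⟨π, hπ.toIsReg, Subset.antisymm (fun y hy b hb => (T.sd ⟨b, hb⟩ trivial _ y).1 (s _ hy))
    fun y hy b t q => u b t q ▸ (T.sd b trivial _ y).2 (hy b b.2),
    ⟨z, hπ.adj _ _ e hz, (T.bd _ trivial z).1 hz.1⟩, u⟩

/-- **PI1-OUT** -/
theorem pi1_out {F : Fm Γ} {hw : F.w.OK} (R : Rz C hw X) (h : TPc F B η) (hf : ¬F.Fst B η)
    (hT : ∀ a ∈ T, a.OK F.w ∧ a.arc ∧ ¬a.pin ∧ Adj B η a)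
    (far : ∀ a ∈ T, ∀ b ∈ T, a ≠ b → a.Far b) (fb : ∀ a ∈ T, ∀ b ∈ B, a.Far b) :
    (∀ a ∈ T, R.bd a ⊆ pc R B η ∩ Pi52.wp R) ∧
    IsOpen (pc R B η ∩ Pi52.wp R ∩ ⋂ a ∈ T, sd R a true) ∧
    ∃ x ∈ pc R B η ∩ Pi52.wp R ∩ ⋂ a ∈ T, sd R a true,
      Dfl49.Sur {x} (pc R B η ∩ Pi52.wp R ∩ ⋂ a ∈ T, sd R a true) := by
  classical
  have := R.con
  have : LocallyConnectedSpace X.P.M := Hz56.locConn (M := X.P.M) X.P.I
  have A : Arcs F.w T := ⟨fun a k => ⟨(hT a k).1, (hT a k).2.1⟩, far⟩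
  have nb : ∀ b ∈ B, b ∉ T := fun b k t => (hT b t).2.2.1 (h.ok b k).2
  have adj : ∀ a ∈ T, ∀ b ∈ B, sw b a = η b := fun a ha b hb =>
    (hT a ha).2.2.2 b (Finset.mem_erase.2 ⟨fun e => nb b hb (e ▸ ha), hb⟩)
  have ok : ∀ a ∈ B ∪ T, a.OK F.w := fun a k =>
    (Finset.mem_union.1 k).elim (fun k => (h.ok a k).1) fun k => (hT a k).1
  have fr : ∀ a ∈ B ∪ T, ∀ b ∈ B ∪ T, a ≠ b → a.Far b := fun a k b l n =>
    (Finset.mem_union.1 k).elim (fun k => (Finset.mem_union.1 l).elim (fun l => h.far a k b l n)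
      fun l => Sid48.far_symm (fb b l a k)) fun k => (Finset.mem_union.1 l).elim (fb a k b) fun l => far a k b l n
  let ζ : Bs → Bool := fun a => if a ∈ T then true else η a
  have z1 : ∀ a ∈ T, ζ a = true := fun a k => if_pos k
  have z2 : ∀ a ∈ B, ζ a = η a := fun a k => if_neg (nb a k)
  have e : pc R (B ∪ T) ζ = pc R B η ∩ out R T := Set.ext fun z =>
    ⟨fun k => ⟨fun a t => z2 a t ▸ k a (Finset.mem_union_left _ t),
      mem_iInter₂.2 fun a t => z1 a t ▸ k a (Finset.mem_union_right _ t)⟩,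
    fun k a t => (Finset.mem_union.1 t).elim (fun t => z2 a t ▸ k.1 a t) fun t => z1 a t ▸ mem_iInter₂.1 k.2 a t⟩
  have Tc := ts_trc R ok
  have bw : ∀ a ∈ B ∪ T, R.bd a ⊆ Pi52.wp R := fun a k z hz => Pi52.II_wp R (OK_hi (ok a k)).2 (R.bd_II hz)
  obtain ⟨b, hb, hs⟩ : ∃ b ∈ B, b.side F.w.l ≠ η b := by simpa only [Fm.Fst, InV, not_forall, exists_prop] using hf
  obtain ⟨a, ha, k⟩ : ∃ a ∈ B ∪ T, Adj (B ∪ T) ζ a := by
    rcases T.eq_empty_or_nonempty with rfl | ne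
    · obtain ⟨a, ha, k⟩ := h.ne.resolve_left (Finset.ne_empty_of_mem hb)
      rw [Finset.union_empty]
      exact ⟨a, ha, fun d t => (k d t).trans (z2 d (Finset.mem_of_mem_erase t)).symm⟩
    obtain ⟨a, ha, m⟩ := T.exists_min_image Bs.lo ne
    refine ⟨a, Finset.mem_union_right _ ha, fun d t => ?_⟩
    obtain ⟨n, t⟩ := Finset.mem_erase.1 t
    refine (Finset.mem_union.1 t).elim (fun t => (adj a ha d t).trans (z2 d t).symm) fun t => ?_
    rw [z1 d t]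
    refine Bool.eq_true_of_not_eq_false fun q => ?_
    have := ((Sid48.side_arc (A.ok d t).2).1 q).1
    have := m d t
    have := A.lt ha
    have := A.lt t
    rcases far d t a ha n with k | k | ⟨-, k, k', -⟩ | ⟨-, k, k', -⟩ <;> omega
  obtain ⟨π, hπ, u, ⟨x, hx⟩, v⟩ := ts_piece R ok fr ha k
  have e' : pc R B η ∩ Pi52.wp R ∩ ⋂ a ∈ T, sd R a true = (ts R ok).U π ∩ Pi52.wp R := by
    rw [u, e, inter_right_comm]; rfl
  have hh : ∀ d s, ((ts R ok).w d).half s ⊆ Pi52.wp R := fun d _ z hz => bw d d.2 ((Tc.bd d trivial z).1 hz.1)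
  have o := ((ts R ok).isOpen_U π).inter (Pi52.isOpen_wp R)
  have su : (ts R ok).U π ⊆ sd R b (η b) ∩ out R T := fun z hz => by
    rw [u, e] at hz; exact ⟨hz.1 b hb, hz.2⟩
  rw [e']
  refine ⟨fun a t z hz => ⟨fun d q => adj a t d q ▸ (Tc.sd ⟨d, Finset.mem_union_left _ q⟩ trivial _ z).1
      (Tc.far_sd (q := ⟨a, Finset.mem_union_right _ t⟩) trivial trivial (Sid48.far_symm (fb a t d q))
        ((Tc.bd _ trivial z).2 hz)), bw a (Finset.mem_union_right _ t) hz⟩, o, x, ⟨hx.1, bw a ha hx.2⟩,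
    Loc8.sur_of_h1 o (Pi52.pre_cut hπ (Pi52.isOpen_wp R) (R.conn_Iio hw.lt.le le_rfl) fun d s _ => hh d s)
      (fun H _ => ?_) ⟨hx.1, bw a ha hx.2⟩⟩
  have := Pi52.h1_cut (G := H) hπ (((Sid48.nk_S R (h.ok b hb).1 _ ▸ (R.nk b (h.ok b hb).1).h.op (η b)).inter
    (Pi52.isOpen_wp R)).inter (isOpen_out R A))
    (h1_sd R A (h.ok b hb).1 (h.ok b hb).2 hs fun a t => ⟨fb a t b hb, adj a t b hb⟩) fun d s q =>
      (Finset.mem_union.1 d.2).symm.imp (fun t z hz => (Tc.sd d trivial _ z).2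
        ((z1 d t).symm.trans (v d s q) ▸ mem_iInter₂.1 hz.2 d t)) fun t => by
        rw [inter_eq_left.2 (subset_inter (subset_inter (fun z hz => (su (hπ.adj d s q hz)).1) (hh d s))
          fun z hz => (su (hπ.adj d s q hz)).2)]
        exact Pi52.h1_bn_half R (a := d.1) (ok d d.2) (h.ok d t).2 s
  convert this using 1
  exact Subset.antisymm (fun z hz => ⟨hz.1, ⟨(su hz.1).1, hz.2⟩, (su hz.1).2⟩) fun z hz => ⟨hz.1, hz.2.1.2⟩

end Crest.Agent.X212.Po96
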